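import Vale.Agent.P151.H648.Main

open MeasureTheory ProbabilityTheory

namespace Vale.Agent.Results.P151.ContinuousTransition

open Vale.Agent.P151 Vale.Agent.P151.H648

/-- **The phase transition is continuous.** For Bernoulli bond percolation, `K_x` denoting the
open cluster of the vertex `x`:
1. On the lattice `ℤ^d`, for every `d ≥ 2`, `0 < p_c < 1`; for `p ≤ p_c` (in particular at `p_c`)
   there is almost surely no infinite open cluster, for `p > p_c` there is almost surely exactly
   one; the percolation probability `θ_x` is continuous on the whole interval `[0, 1]` and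
   `θ_x(p) ≥ c (p - p_c)` for `p ≥ p_c`, with `c > 0`.
2. Let `G` be a connected, locally finite graph with `p_c(G) < 1` which has a planar projection
   compatible with a quasi-transitive group of automorphisms, or a quasi-transitive group of
   automorphisms that is virtually nilpotent up to finite pieces, or is quasi-transitive and of
   growth at least `exp (c √n)`. For `p ≤ p_c` there is almost surely no infinite open cluster and
   every `θ_x` is continuous at `p`; if `G` is infinite, then `p_c > 0` and
   `θ_x(p) ≥ c (p - p_c)` for `p ≥ p_c`; if `G` is amenable, then every `θ_x` is continuous on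
   `[0, 1]`, and, `G` being infinite, there is almost surely exactly one infinite open cluster for
   `p > p_c`.
3. Let `G` be a connected, locally finite, quasi-transitive, nonamenable graph with
   `p_c(G) < 1`. The critical exponents take their mean-field values: for every `ε > 0`, up to
   positive constants, `P_p(|K_x| ≥ n)` at `p = p_c` is between `n ^ (-1/2 - ε)` and
   `n ^ (-1/2 + ε)`, `θ_x(p)` is between `p - p_c` and `(p - p_c) ^ (1 - ε)` for `p > p_c`, and
   `E_p |K_x|` is between `(p_c - p) ^ (-1 + ε)` and `(p_c - p) ^ (-1 - ε)` for `p < p_c`. -/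
theorem result :
    (∀ d : ℕ, 2 ≤ d →
      (0 < pc (lattice d) ∧ pc (lattice d) < 1) ∧
      (∀ p : unitInterval, (p : ℝ) ≤ pc (lattice d) →
        setBernoulli (lattice d).edgeSet p (hasInfiniteCluster (Fin d → ℤ)) = 0) ∧
      (∀ p : unitInterval, pc (lattice d) < p →
        setBernoulli (lattice d).edgeSet p (uniqueInfiniteCluster (Fin d → ℤ))ᶜ = 0) ∧
      (∀ x : Fin d → ℤ, Continuous (theta (lattice d) x)) ∧
      ∀ x : Fin d → ℤ, ∃ c : ℝ, 0 < c ∧ ∀ p : unitInterval, pc (lattice d) ≤ p →
        c * (p - pc (lattice d)) ≤ theta (lattice d) x p) ∧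
    (∀ (V : Type) (G : SimpleGraph V) [G.LocallyFinite], G.Connected → pc G < 1 →
      (HasPlanarProjection G ∨ HasNilpotentSymmetry G ∨
        (IsQuasiTransitive G ∧ HasStretchedGrowth G)) →
        (∀ p : unitInterval, (p : ℝ) ≤ pc G →
          setBernoulli G.edgeSet p (hasInfiniteCluster V) = 0 ∧
          ∀ x : V, ContinuousAt (theta G x) p) ∧
        (Infinite V → 0 < pc G ∧ ∀ x : V, ∃ c : ℝ, 0 < c ∧ ∀ p : unitInterval, pc G ≤ p →
          c * (p - pc G) ≤ theta G x p) ∧
        (IsAmenable G → (∀ x : V, Continuous (theta G x)) ∧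
          (Infinite V → ∀ p : unitInterval, pc G < p →
            setBernoulli G.edgeSet p (uniqueInfiniteCluster V)ᶜ = 0))) ∧
    ∀ (V : Type) (G : SimpleGraph V) [G.LocallyFinite], G.Connected → pc G < 1 →
      IsQuasiTransitive G → ¬ IsAmenable G → ∀ (x : V) (ε : ℝ), 0 < ε → ε < 1 →
        ∃ c C : ℝ, 0 < c ∧ 0 < C ∧
          (∀ p : unitInterval, (p : ℝ) = pc G → ∀ n : ℕ, 1 ≤ n →
            c * (n : ℝ) ^ (-(1 / 2) - ε) ≤ tail G x n p ∧
            tail G x n p ≤ C * (n : ℝ) ^ (-(1 / 2) + ε)) ∧
          (∀ p : unitInterval, pc G < p →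
            c * ((p : ℝ) - pc G) ≤ theta G x p ∧
            theta G x p ≤ C * ((p : ℝ) - pc G) ^ (1 - ε)) ∧
          ∀ p : unitInterval, (p : ℝ) < pc G →
            ENNReal.ofReal (c * (pc G - (p : ℝ)) ^ (-1 + ε)) ≤ meanSize G x p ∧
            meanSize G x p ≤ ENNReal.ofReal (C * (pc G - (p : ℝ)) ^ (-1 - ε)) := by
  refine ⟨fun d hd => ?_, fun V G _ hG hpc1 hcl => ?_,
    fun V G _ hG hpc1 hqt hna x ε hε hε1 => nonam hG hpc1 hqt hna x ε hε hε1⟩
  · have hinf := lattice_infinite (d := d) hd
    have hall : pc (lattice d) < 1 ∧ ∀ p : unitInterval, (p : ℝ) = pc (lattice d) →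
        setBernoulli (lattice d).edgeSet p (hasInfiniteCluster (Fin d → ℤ)) = 0 := by
      obtain ⟨m, rfl⟩ : ∃ m, d = m + 2 := ⟨d - 2, by omega⟩
      exact ZdT.no_perc (lattice (m + 2)) fun _ _ => Iff.rfl
    have h1 := high (G := lattice d) lattice_connected lattice_transitive
    have h2 := amen (G := lattice d) lattice_connected lattice_transitive lattice_amenable hall.2
    exact ⟨⟨h1.1, hall.1⟩, fun p hp => (low lattice_connected hall.2 p hp).1, h2.2 hinf, h2.1,
      h1.2⟩
  · have h := no_perc_class V G hG hpc1 hcl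
    exact ⟨fun p hp => low hG h p hp, fun _ => high hG (qt_class hcl),
      fun ham => amen hG (qt_class hcl) ham h⟩

end Vale.Agent.Results.P151.ContinuousTransition
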