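import Vale.Agent.P151.H560.Main

open MeasureTheory ProbabilityTheory

namespace Vale.Agent.Results.P151.CriticalPassageTimes

open Vale.Agent.P151 Vale.Agent.P151.H648

/-- **No percolation and first-passage percolation at the critical point.**
1. Bernoulli bond percolation on `ℤ^d`, for every `d ≥ 2`, in terms of Mathlib only: there is a
   critical value `c ∈ (0, 1)` such that almost surely all open clusters are finite for `p ≤ c`,
   in particular at `p = c`, and some open cluster is infinite for `p > c`. Moreover `ℤ^d` is one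
   of the graphs of 2.
2. Let `G` be a connected, locally finite graph with `p_c(G) < 1` which has a planar projection
   compatible with a quasi-transitive group of automorphisms, or a quasi-transitive group of
   automorphisms that is virtually nilpotent up to finite pieces, or is quasi-transitive and of
   growth at least `exp (c √n)`. Then
   (a) for `p ≤ p_c` there is almost surely no infinite open cluster;
   (b) let the edges `e` have independent passage times `t e ≥ 0` with arbitrary laws `ν e` such
       that, for some `a > 0`, `P(t e < a) ≤ p_c` for all edges. Almost surely every ball of the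
       passage time metric is finite and any two vertices are joined by a geodesic;
   (c) the condition in (b) is sharp: if `V` is infinite and `P(t e = 0) ≥ q > p_c` for all edges,
       then almost surely infinitely many vertices are at passage time `0` from some vertex;
   (d) if `V` is infinite, then `p_c > 0`, the mean cluster size `E_p |K_x|` is finite exactly for
       `p < p_c`, and for every `ε ∈ (0, 1)` there is `c > 0` with
       `P_p(|K_x| ≥ n) ≥ c n ^ (-1/2 - ε)` at `p = p_c` and
       `E_p |K_x| ≥ c (p_c - p) ^ (-1 + ε)` for `p < p_c`. -/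
theorem result :
    (∀ d : ℕ, 2 ≤ d → ∃ c : ℝ, 0 < c ∧ c < 1 ∧ ∀ p : unitInterval,
      ((p : ℝ) ≤ c → ∀ᵐ ω ∂(setBernoulli
        {e : Sym2 (Fin d → ℤ) | ∃ x y, e = s(x, y) ∧ ∑ i, |x i - y i| = 1} p),
          ∀ x, {y | (SimpleGraph.fromEdgeSet ω).Reachable x y}.Finite) ∧
      (c < p → ∀ᵐ ω ∂(setBernoulli
        {e : Sym2 (Fin d → ℤ) | ∃ x y, e = s(x, y) ∧ ∑ i, |x i - y i| = 1} p),
          ∃ x, {y | (SimpleGraph.fromEdgeSet ω).Reachable x y}.Infinite)) ∧
    (∀ d : ℕ, 2 ≤ d → (lattice d).Connected ∧ pc (lattice d) < 1 ∧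
      HasPlanarProjection (lattice d)) ∧
    ∀ (V : Type) (G : SimpleGraph V) [G.LocallyFinite], G.Connected → pc G < 1 →
      (HasPlanarProjection G ∨ HasNilpotentSymmetry G ∨
        (IsQuasiTransitive G ∧ HasStretchedGrowth G)) →
        (∀ p : unitInterval, (p : ℝ) ≤ pc G →
          setBernoulli G.edgeSet p (hasInfiniteCluster V) = 0) ∧
        (∀ (ν : Sym2 V → Measure ℝ) [∀ e, IsProbabilityMeasure (ν e)] (a : ℝ), 0 < a →
          (∀ e ∈ G.edgeSet, ν e (Set.Iio 0) = 0) →
          (∀ e ∈ G.edgeSet, ν e (Set.Iio a) ≤ ENNReal.ofReal (pc G)) →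
          ∀ᵐ t ∂(Measure.infinitePi ν),
            (∀ (x : V) (r : ℝ), {y | ∃ w : G.Walk x y, (w.edges.map t).sum ≤ r}.Finite) ∧
            ∀ x y : V, ∃ w : G.Walk x y, ∀ w' : G.Walk x y,
              (w.edges.map t).sum ≤ (w'.edges.map t).sum) ∧
        (Infinite V → ∀ (ν : Sym2 V → Measure ℝ) [∀ e, IsProbabilityMeasure (ν e)] (q : ℝ),
          pc G < q → (∀ e ∈ G.edgeSet, ENNReal.ofReal q ≤ ν e {0}) →
          ∀ᵐ t ∂(Measure.infinitePi ν), ∃ x : V,
            {y | ∃ w : G.Walk x y, (w.edges.map t).sum = 0}.Infinite) ∧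
        (Infinite V → 0 < pc G ∧ ∀ x : V,
          (∀ p : unitInterval, meanSize G x p < ⊤ ↔ (p : ℝ) < pc G) ∧
          ∀ ε : ℝ, 0 < ε → ε < 1 → ∃ c : ℝ, 0 < c ∧
            (∀ p : unitInterval, (p : ℝ) = pc G → ∀ n : ℕ, 1 ≤ n →
              c * (n : ℝ) ^ (-(1 / 2) - ε) ≤ tail G x n p) ∧
            ∀ p : unitInterval, (p : ℝ) < pc G →
              ENNReal.ofReal (c * (pc G - (p : ℝ)) ^ (-1 + ε)) ≤ meanSize G x p) := by
  have hall : ∀ d : ℕ, 2 ≤ d → pc (lattice d) < 1 ∧ ∀ p : unitInterval,
      (p : ℝ) = pc (lattice d) →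
        setBernoulli (lattice d).edgeSet p (hasInfiniteCluster (Fin d → ℤ)) = 0 := by
    intro d hd
    obtain ⟨m, rfl⟩ : ∃ m, d = m + 2 := ⟨d - 2, by omega⟩
    exact ZdT.no_perc (lattice (m + 2)) fun _ _ => Iff.rfl
  refine ⟨fun d hd => ?_, fun d hd => ⟨lattice_connected, (hall d hd).1, H560.lattice_planar hd⟩,
    fun V G _ hG hpc1 hcl => ?_⟩
  · have hinf := lattice_infinite (d := d) hd
    have h1 := high (G := lattice d) lattice_connected lattice_transitive
    refine ⟨pc (lattice d), h1.1, (hall d hd).1, fun p => ⟨fun hp => ?_, fun hp => ?_⟩⟩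
    · rw [H560.lattice_edgeSet]
      have h2 := (low lattice_connected (hall d hd).2 p hp).1
      filter_upwards [measure_eq_zero_iff_ae_notMem.1 h2] with ω hω x
      by_contra h
      exact hω ⟨x, h⟩
    · rw [H560.lattice_edgeSet]
      filter_upwards [ae_perc lattice_connected 0 (theta_pos lattice_connected 0 hp)] with ω hω
      exact hω
  · have h := no_perc_class V G hG hpc1 hcl
    have h' : ∀ p : unitInterval, (p : ℝ) ≤ pc G →
        setBernoulli G.edgeSet p (hasInfiniteCluster V) = 0 := fun p hp => (low hG h p hp).1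
    exact ⟨h', fun ν _ a ha h0 h1 => H560.fpp hG hpc1 h' ν ha h0 h1,
      fun _ ν _ q hq h1 => H560.fpp_super hG hpc1 ν hq h1,
      fun _ => H560.crit hG hpc1 (qt_class hcl)⟩

end Vale.Agent.Results.P151.CriticalPassageTimes
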